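import Vale.Agent.P225.System.Trunc
import Vale.Agent.P225.Plan.Defs

/-!
P225, module F: the reference of a segment on the blocks that meet the band, where it is bounded
uniformly in the truncation.
-/

noncomputable section

namespace Vale.Agent.P225.Residual

open Matrix SU2 Set Vale.Agent.P225.Trunc
open scoped ComplexOrder Matrix.Norms.L2Operator

variable {d : PathData} {r₂ β φ₀ : ℝ}

/-- The indicator of the gauge blocks that meet the band. -/
def bandInd (G : Fin 3) {K : ℕ} (x : PntK K) : ℝ :=
  if blkLab G x.out ∈ bandBlocks G then 1 else 0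

/-- The projection on these blocks. -/
def bandProj (G : Fin 3) (K : ℕ) : Op (PntK K) := diagonal fun x => (bandInd G x : ℂ)

/-- A bound for the weights of the blocks that meet the band. -/
def bandBound : ℝ :=
  1 + ∑ G : Fin 3, ∑ q ∈ bandBlocks G, Real.sqrt (cas q.1 + cas q.2)

theorem bandBound_pos : 0 < bandBound := by
  have : (0 : ℝ) ≤ ∑ G : Fin 3, ∑ q ∈ bandBlocks G, Real.sqrt (cas q.1 + cas q.2) := by positivity
  unfold bandBound
  linarith

theorem blkWeight_mul_bandInd (G : Fin 3) {K : ℕ} (x : PntK K) :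
    blkWeight G x * bandInd G x ≤ bandBound := by
  unfold bandInd
  split_ifs with h
  · rw [mul_one]
    have h1 : blkWeight G x ≤ ∑ q ∈ bandBlocks G, Real.sqrt (cas q.1 + cas q.2) :=
      Finset.single_le_sum (f := fun q : ℕ × ℕ => Real.sqrt (cas q.1 + cas q.2))
        (fun q _ => Real.sqrt_nonneg _) h
    have h2 := Finset.single_le_sum
      (f := fun G : Fin 3 => ∑ q ∈ bandBlocks G, Real.sqrt (cas q.1 + cas q.2))
      (fun G _ => Finset.sum_nonneg fun q _ => Real.sqrt_nonneg _) (Finset.mem_univ G)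
    unfold bandBound
    linarith
  · rw [mul_zero]; exact bandBound_pos.le

theorem bandProj_sq (G : Fin 3) (K : ℕ) : bandProj G K * bandProj G K = bandProj G K := by
  rw [bandProj, Trunc.rdiag_mul]
  congr 1; funext x
  unfold bandInd; split_ifs <;> simp

theorem bandProj_herm (G : Fin 3) (K : ℕ) : star (bandProj G K) = bandProj G K :=
  (Trunc.rdiag_posSemidef fun x => by unfold bandInd; split_ifs <;> norm_num).isHermitian

theorem bandProj_mul {G : Fin 3} {K : ℕ} {X : Op (PntK K)}
    (h : ∀ x y, blkLab G x.out ∉ bandBlocks G → X x y = 0) : bandProj G K * X = X := by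
  ext x y
  rw [bandProj, diagonal_mul, bandInd]
  split_ifs with hx
  · simp
  · simp [h x y hx]

theorem of_bandProj_mul {G : Fin 3} {K : ℕ} {X : Op (PntK K)} (h : bandProj G K * X = X)
    (x y : PntK K) (hx : blkLab G x.out ∉ bandBlocks G) : X x y = 0 := by
  rw [← h, bandProj, diagonal_mul, bandInd, if_neg hx]
  simp

/-- The reference of a segment keeps the gauge blocks. -/
theorem segRef_commute (hd : d.Good r₂ β φ₀) {p : Param} (hp : InBox d p) (K i : ℕ) {l : ℕ}
    (hl : l < (d.plan (d.j₀ + i)).length) {f : PntK K → ℝ}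
    (hf : ∀ x y, SameBlk ((d.plan (d.j₀ + i))[l]).gauge x.out y.out → f x = f y) {t : ℝ}
    (ht : t ∈ Icc (segStart d i l) (segEnd d i l)) :
    Commute (diagonal fun x => (f x : ℂ)) (segRef d r₂ β p K i l t) := by
  obtain ⟨hV0, hV, -, -⟩ := segRef_spec hd hp K i hl
  refine riccati_commute (Trunc.pathDamp_cont hd).continuousOn hV (fun u hu => ?_)
    (hV0 ▸ Trunc.rdiag_commute _ _) t ht
  by_cases h : ctrlEnd d i l ≤ u
  · rw [Trunc.seg_op_tail hd p K hl ⟨h, hu.2⟩]
    exact Trunc.rdiag_commute _ _
  · have hu' : u < stageStart d i (l + 1) := by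
      have hε := speed_pos (one_le_idx hd i)
      set σ := (d.plan (d.j₀ + i))[l] with hσ
      have h3 : (1 + (σ.len : ℝ)) / speed (d.j₀ + i) ≤ σ.dur / speed (d.j₀ + i) := by
        refine div_le_div_of_nonneg_right ?_ hε.le
        have : (0 : ℝ) ≤ σ.wait + σ.dwell := by positivity
        simp only [StagePlan.dur]; linarith
      have h4 := not_le.1 h
      rw [Trunc.ctrlEnd_eq hl, ← hσ] at h4
      rw [stageStart_succ hl, ← hσ]
      linarith
    obtain ⟨h1, h2⟩ := Trunc.pathMat_stage hd p hl ⟨hu.1, hu'⟩ (K := K)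
    have h1' : truncOp d p K u = _ := h1
    rw [h1', Trunc.stageMat]
    refine Trunc.rdiag_commute_of fun x y hne => hf x y ?_
    by_contra hb
    exact hne (if_neg hb)

theorem bandProj_commute (hd : d.Good r₂ β φ₀) {p : Param} (hp : InBox d p) (K i : ℕ) {l : ℕ}
    (hl : l < (d.plan (d.j₀ + i)).length) {t : ℝ}
    (ht : t ∈ Icc (segStart d i l) (segEnd d i l)) :
    Commute (bandProj ((d.plan (d.j₀ + i))[l]).gauge K) (segRef d r₂ β p K i l t) :=
  segRef_commute hd hp K i hl (fun x y h => by unfold bandInd; rw [h.blkLab]) ht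

/-- The growth along a backward map on blocks where the coefficient is at most `A`. -/
theorem norm_le_back {n : Type*} [Fintype n] [DecidableEq n] {W R : ℝ → Op n} {P X : Op n}
    {a b A : ℝ} (hab : a ≤ b) (hW : ContinuousOn W (Icc a b)) (hR : IsBack W R a b)
    (hP : P * P = P) (hPW : ∀ t ∈ Icc a b, Commute P (W t))
    (hA : ∀ t ∈ Icc a b, (A • (1 : Op n) - W t * P).PosSemidef) (hX : P * X = X) :
    P * (R b * X) = R b * X ∧ ‖X‖ ≤ Real.exp (A * (b - a)) * ‖R b * X‖ := by
  have hb : b ∈ Icc a b := right_mem_Icc.2 hab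
  have hc := back_commute hW hR hPW b hb
  refine ⟨by rw [← mul_assoc, hc.eq, mul_assoc, hX], ?_⟩
  set R' : ℝ → Op n := fun t => R t * P + (1 - P) with hR'
  have hWc : ContinuousOn (fun t => W t * P) (Icc a b) := hW.mul continuousOn_const
  have hback : IsBack (fun t => W t * P) R' a b := by
    refine ⟨by simp [hR', hR.1], fun t ht =>
      (((hR.2 t ht).mul_const P).add_const (1 - P)).congr_deriv ?_⟩
    have e : P * (W t * P) = W t * P := by rw [← mul_assoc, (hPW t ht).eq, mul_assoc, hP]
    simp only [hR', add_mul, sub_mul, one_mul, e, sub_self, add_zero, neg_mul, mul_assoc]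
  have hRX : R' b * X = R b * X := by
    simp only [hR', add_mul, sub_mul, one_mul, mul_assoc, hX, sub_self, add_zero]
  have hinv := back_inv_norm_le hback hWc (M := fun _ => A) continuous_const
    (fun t ht => by rw [Complex.coe_smul]; exact hA t ht) b hb
  rw [intervalIntegral.integral_const, smul_eq_mul] at hinv
  have hu := (isUnit_iff_isUnit_det _).1 (back_isUnit hWc hback b hb)
  calc ‖X‖ = ‖(R' b)⁻¹ * (R b * X)‖ := by
        rw [← hRX, ← mul_assoc, nonsing_inv_mul _ hu, one_mul]
    _ ≤ ‖(R' b)⁻¹‖ * ‖R b * X‖ := norm_mul_le _ _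
    _ ≤ _ := by
        rw [mul_comm A]
        exact mul_le_mul_of_nonneg_right hinv (norm_nonneg _)

/-- On band blocks the reference is bounded and close to the free diagonal. -/
theorem band_bounds (period : ℕ) (plan : ℕ → List StagePlan) (box : ℝ) :
    ∃ (C A : ℝ) (j₁ : ℕ), 0 < C ∧ 0 < A ∧ ∀ (d : PathData) (r₂ β φ₀ : ℝ), d.period = period →
      d.plan = plan → d.box = box → j₁ ≤ d.j₀ → d.Good r₂ β φ₀ → ∀ p : Param, InBox d p →
      ∀ (K i l : ℕ) (hl : l < (d.plan (d.j₀ + i)).length),
        ∀ t ∈ Icc (segStart d i l) (segEnd d i l),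
          (A • (1 : Op (PntK K)) -
              segRef d r₂ β p K i l t * bandProj ((d.plan (d.j₀ + i))[l]).gauge K).PosSemidef ∧
            ‖(freeDiag d r₂ β K t - segRef d r₂ β p K i l t) *
                bandProj ((d.plan (d.j₀ + i))[l]).gauge K‖ ≤ C * speed (d.j₀ + i) := by
  obtain ⟨K₁, hK₁, hsand⟩ := Trunc.seg_sandwich period plan box
  obtain ⟨C, hC, hrate⟩ := Trunc.freeRate_weight
  obtain ⟨j₁, hj₁⟩ := Trunc.exists_speed_le (1 / (2 * K₁)) (by positivity)
  have hB := bandBound_pos
  refine ⟨K₁ * (2 * C * bandBound), 3 * C * bandBound, j₁, by positivity, by positivity, ?_⟩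
  intro d r₂ β φ₀ e1 e2 e3 hj hd p hp K i l hl t ht
  set G := ((d.plan (d.j₀ + i))[l]).gauge
  set k := K₁ * speed (d.j₀ + i) with hk
  have hk0 : 0 < k := mul_pos hK₁ (speed_pos (one_le_idx hd i))
  have hk2 : k ≤ 1 / 2 := by
    have := hj₁ (d.j₀ + i) (one_le_idx hd i) (by omega)
    rw [le_div_iff₀ (by positivity)] at this
    linarith
  obtain ⟨-, -, -, hg, hs⟩ := Trunc.seg_times hd hl
  obtain ⟨hV0, hV, hVp, -⟩ := segRef_spec hd hp K i hl
  obtain ⟨s1, s2, -⟩ := hsand d r₂ β φ₀ e1 e2 e3 hd p hp K i l hl hk2 t ht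
  set V := segRef d r₂ β p K i l t
  set F := freeDiag d r₂ β K t with hF
  set P := bandProj G K with hP
  have hPV : Commute P V := bandProj_commute hd hp K i hl ht
  have hPF : Commute P F := Trunc.rdiag_commute _ _
  have hPP : P * P = P := bandProj_sq G K
  have hfree : ∀ x : PntK K, freeRate d r₂ β (lab x.out) t * bandInd G x ≤ 2 * C * bandBound := by
    intro x
    have h1 := blkWeight_mul_bandInd G x
    have h2 := (hrate d r₂ β φ₀ hd t (hg.trans ht.1) G K x).2
    have h0 : 0 ≤ bandInd G x := by unfold bandInd; split_ifs <;> norm_num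
    calc _ ≤ 2 * C * blkWeight G x * bandInd G x := mul_le_mul_of_nonneg_right h2 h0
      _ ≤ _ := by rw [mul_assoc]; exact mul_le_mul_of_nonneg_left h1 (by positivity)
  have hdiag : ∀ c a : ℝ, 0 ≤ a → a * (2 * C * bandBound) ≤ c →
      (c • (1 : Op (PntK K)) - a • (F * P)).PosSemidef := by
    intro c a ha hac
    rw [show c • (1 : Op (PntK K)) - a • (F * P) = Matrix.diagonal fun x =>
        ((c - a * (freeRate d r₂ β (lab x.out) t * bandInd G x) : ℝ) : ℂ) by
      rw [hF, hP, freeDiag, bandProj, Trunc.rdiag_mul, Trunc.rdiag_smul,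
        show c • (1 : Op (PntK K)) = Matrix.diagonal fun _ => ((c : ℝ) : ℂ) from by
          rw [← diagonal_one, ← diagonal_smul]; congr 1; funext x; simp [Complex.real_smul],
        Trunc.rdiag_sub]]
    exact Trunc.rdiag_posSemidef fun x => by
      linarith [mul_le_mul_of_nonneg_left (hfree x) ha]
  have hcut : ∀ M : Op (PntK K), Commute P M → M.PosSemidef → (M * P).PosSemidef := by
    intro M hM hp'
    have h := star_conj_posSemidef hp' P
    rwa [hP, bandProj_herm, ← hP, hM.eq, mul_assoc, hPP] at h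
  have u1 := hcut _ ((hPF.smul_right (1 + k)).sub_right hPV) s1
  have u2 := hcut _ (hPV.sub_right (hPF.smul_right (1 - k))) s2
  constructor
  · have h0 := hdiag (3 * C * bandBound) (1 + k) (by linarith) (by
      nlinarith [mul_pos hC hB])
    have := h0.add u1
    convert this using 1
    simp only [sub_mul, smul_mul_assoc]
    abel
  · have hk' : k * (2 * C * bandBound) = K₁ * (2 * C * bandBound) * speed (d.j₀ + i) := by
      rw [hk]; ring
    have h0 := hdiag _ k hk0.le hk'.le
    refine Trunc.norm_le_of_sandwich ?_ (mul_pos (by positivity) (speed_pos (one_le_idx hd i))) ?_ ?_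
    · have eV : star V = V := (hVp t ht).isHermitian
      have eF : star F = F := (Trunc.freeDiag_psd hd (hs.trans ht.1)).isHermitian
      rw [IsHermitian, ← star_eq_conjTranspose, star_mul, star_sub, eV, eF, hP, bandProj_herm,
        ← hP]
      exact (hPF.sub_right hPV).eq
    · have := h0.add u2
      convert this using 1
      simp only [sub_mul, smul_mul_assoc]
      module
    · have := h0.add u1
      convert this using 1
      simp only [sub_mul, smul_mul_assoc]
      module

end Vale.Agent.P225.Residual
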